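import Mathlib
import Vale.Agent.P150.Defs
import Vale.Agent.P150.H281.InstL

open Filter Topology

namespace Vale.Agent.Results.P150.SlowMixingSixth

open Vale.Agent.P150

/-- Zero-field SK heat-bath dynamics at EVERY fixed low temperature `β > 1`: for some `C > 0`,
with high probability over the disorder, with `A = n ^ (1/6) / (log n) ^ C`, the spectral gap is at
most `exp (-A)`, the mixing time is at least `(log 2) exp A`, at every time `t` some start has
total variation at least `exp (- exp (-A) t) / 2`; the slow mixing is not a worst-start effect: at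
each time `t ≤ exp A` the starts `x` with total variation less than `1 / 2 - exp (-A)` have total
Gibbs mass at most `exp (-A)`; and, simultaneously for all `s ≥ n ^ (-5/12)` and `w ≥ 1`, all
configurations `y` outside a set of Gibbs mass at most `(log n) ^ C w s ^ (2/5)` are such that the
configurations `x` with overlap at most `s` in modulus with `y` have Gibbs mass at most
`exp (-w)`. -/
theorem result (β : ℝ) (hβ : 1 < β) : ∃ C : ℝ, 0 < C ∧
    WHP (fun n => {g |
      gap (skJ β g) (fun _ => 0) ≤ Real.exp (-((n : ℝ) ^ (1 / 6 : ℝ) / Real.log n ^ C)) ∧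
      Real.log 2 * Real.exp ((n : ℝ) ^ (1 / 6 : ℝ) / Real.log n ^ C) ≤
        tmix (skJ β g) (fun _ => 0) ∧
      (∀ t, 0 ≤ t → ∃ x,
        Real.exp (-(Real.exp (-((n : ℝ) ^ (1 / 6 : ℝ) / Real.log n ^ C)) * t)) / 2 ≤
          tvDist (skJ β g) (fun _ => 0) t x) ∧
      (∀ t, 0 ≤ t → t ≤ Real.exp ((n : ℝ) ^ (1 / 6 : ℝ) / Real.log n ^ C) →
        ex (skJ β g) (fun _ => 0) (fun x => if tvDist (skJ β g) (fun _ => 0) t x <
          1 / 2 - Real.exp (-((n : ℝ) ^ (1 / 6 : ℝ) / Real.log n ^ C)) then 1 else 0) ≤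
            Real.exp (-((n : ℝ) ^ (1 / 6 : ℝ) / Real.log n ^ C))) ∧
      ∀ s w : ℝ, (n : ℝ) ^ (-(5 / 12) : ℝ) ≤ s → 1 ≤ w →
        ex (skJ β g) (fun _ => 0) (fun y => if Real.exp (-w) <
          ex (skJ β g) (fun _ => 0)
            (fun x => if |(∑ i, sp (x i) * sp (y i)) / n| ≤ s then 1 else 0)
            then 1 else 0) ≤ Real.log n ^ C * w * s ^ (2 / 5 : ℝ)}) :=
  H281.slowL (by linarith) (H281.momL hβ)

end Vale.Agent.Results.P150.SlowMixingSixth
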